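import Vale.Agent.P283M.Br
import Vale.Agent.P287D.Va.Dsc

/-!
# P283M: the bridge, local lemmas
-/

set_option linter.all false

open Set CategoryTheory AlgebraicGeometry Pointwise

noncomputable section

namespace Vale.Agent.P283M.Br

open Vale.Agent.P289 (Pt St toRat DForm dimension)
open Vale.Agent.P287D Vale.Agent.P283M.Stm Vale.Agent.P283M.Stm.Var Vale.Agent.P297Z

variable {X : Var} {x y : Pt X.X} {g g' a b : X.K} {W : X.X.Opens} {s t r : Finset X.K}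
  {P : Pl X.K} {O : ValuationSubring X.K}

/-- the local ring inside the function field -/
def lr (x : Pt X.X) : Subring X.K := (algebraMap (X.X.presheaf.stalk x) X.K).range

theorem reg_iff : RegAt g x ↔ g ∈ lr x := Iff.rfl

theorem reg_mul (h : RegAt a x) (h' : RegAt b x) : RegAt (a * b) x := (lr x).mul_mem h h'

theorem reg_one : RegAt (1 : X.K) x := (lr x).one_mem

theorem reg_pow (h : RegAt a x) (k : ℕ) : RegAt (a ^ k) x := (lr x).pow_mem h k

theorem reg_gen (h : y ⤳ x) (hg : RegAt g x) : RegAt g y := by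
  obtain ⟨c, rfl⟩ := hg
  refine ⟨(X.X.presheaf.stalkSpecializes h).hom c, ?_⟩
  change (X.X.presheaf.stalkSpecializes _).hom ((X.X.presheaf.stalkSpecializes h).hom c) =
    (X.X.presheaf.stalkSpecializes _).hom c
  rw [← CommRingCat.comp_apply, TopCat.Presheaf.stalkSpecializes_comp]

theorem reg_const (c : ℂ) (x : Pt X.X) : RegAt (algebraMap ℂ X.K c) x := by
  refine ⟨(X.X.presheaf.germ ⊤ x trivial).hom
    (((Scheme.ΓSpecIso (CommRingCat.of ℂ)).inv ≫ X.str.appTop).hom c), ?_⟩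
  exact TopCat.Presheaf.germ_stalkSpecializes_apply X.X.presheaf (U := ⊤) (y := x) trivial
    (genericPoint_specializes x) _

/-- the local ring as an algebra -/
def la (x : Pt X.X) : Subalgebra ℂ X.K := { lr x with algebraMap_mem' := fun c => reg_const c x }

theorem reg_adjoin {S : Set X.K} (h : ∀ a ∈ S, RegAt a x) (ha : a ∈ Algebra.adjoin ℂ S) :
    RegAt a x := (Algebra.adjoin_le (S := la x) h) ha

theorem UnAt.mul (h : UnAt a x) (h' : UnAt b x) : UnAt (a * b) x :=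
  ⟨mul_ne_zero h.1 h'.1, reg_mul h.2.1 h'.2.1, by rw [mul_inv]; exact reg_mul h.2.2 h'.2.2⟩

theorem UnAt.inv (h : UnAt a x) : UnAt a⁻¹ x := ⟨inv_ne_zero h.1, h.2.2, by rw [inv_inv]; exact h.2.1⟩

theorem UnAt.div (h : UnAt a x) (h' : UnAt b x) : UnAt (a / b) x := by
  rw [div_eq_mul_inv]; exact h.mul h'.inv

theorem unAt_one : UnAt (1 : X.K) x := ⟨one_ne_zero, reg_one, by rw [inv_one]; exact reg_one⟩

theorem Dom.ord (h : Dom P.ring x) (hg : UnAt g x) : P.ord g = 0 :=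
  Pl.ord_unit _ (h _ hg.2.1).1 (h _ hg.2.2).1

theorem Dom.rd (h : Dom P.ring x) (hg : UnAt g x) : P.rd g ≠ 0 := by
  have a := (h _ hg.2.1).1
  have b := (h _ hg.2.2).1
  have e : P.rd g = IsLocalRing.residue P.ring ⟨g, a⟩ := dif_pos a
  rw [e]
  refine (IsLocalRing.residue_ne_zero_iff_isUnit _).2
    (IsUnit.of_mul_eq_one ⟨g⁻¹, b⟩ (Subtype.ext (mul_inv_cancel₀ hg.1)))

theorem Is.dom {E : X.PrimeDiv} (h : Is (RingEquiv.refl X.K) E P) : Dom P.ring E.1 :=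
  fun g hg => ⟨(h g).2 hg, fun _ k => (h _).1 k⟩

theorem GenAt.un (h : GenAt t g x) (h' : GenAt t g' x) : UnAt (g' / g) x :=
  ⟨div_ne_zero h'.2.1 h.2.1, h.2.2 _ h'.1, by rw [inv_div]; exact h'.2.2 _ h.1⟩

theorem GenAt.nz (h : GenAt t g x) : Nz t := ⟨g, h.1, h.2.1⟩

theorem GenAt.mx (h : GenAt t g x) (hP : Dom P.ring x) : mx t P = -(P.ord g : ℝ) := by
  have := P.mz_eq h.1 h.2.1 fun g' hg' h0 => by
    have k := Pl.ord_nonneg_of_mem _ (hP _ (h.2.2 g' hg')).1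
    rw [Pl.ord_div _ h0 h.2.1] at k
    omega
  rw [mx_apply, this, Int.cast_neg]

theorem genAt_one : GenAt ({1} : Finset X.K) 1 x :=
  ⟨Finset.mem_singleton_self _, one_ne_zero, fun g' h => by
    rw [Finset.mem_singleton.1 h, div_one]; exact reg_one⟩

theorem GenAt.mul [DecidableEq X.K] (h : GenAt s a x) (h' : GenAt t b x) :
    GenAt (s * t) (a * b) x :=
  ⟨Finset.mul_mem_mul h.1 h'.1, mul_ne_zero h.2.1 h'.2.1, fun g hg => by
    obtain ⟨c, hc, e, he, rfl⟩ := Finset.mem_mul.1 hg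
    rw [mul_div_mul_comm]
    exact reg_mul (h.2.2 c hc) (h'.2.2 e he)⟩

theorem Bpf.mul [DecidableEq X.K] (h : Bpf s W) (h' : Bpf t W) : Bpf (s * t) W := fun x hx =>
  let ⟨_, a⟩ := h x hx
  let ⟨_, b⟩ := h' x hx
  ⟨_, a.mul b⟩

theorem Bpf.nz (h : Bpf s W) (hx : x ∈ W) : Nz s := let ⟨_, a⟩ := h x hx; a.nz

/-- the localisation at `x` of a ring of functions -/
def lz (A : Subalgebra ℂ X.K) (x : Pt X.X) : Subalgebra ℂ X.K where
  carrier := {a | ∃ b ∈ A, ∃ c ∈ A, UnAt c x ∧ a = b / c}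
  mul_mem' := by
    rintro _ _ ⟨b, hb, c, hc, u, rfl⟩ ⟨b', hb', c', hc', u', rfl⟩
    exact ⟨_, mul_mem hb hb', _, mul_mem hc hc', u.mul u', div_mul_div_comm _ _ _ _⟩
  add_mem' := by
    rintro _ _ ⟨b, hb, c, hc, u, rfl⟩ ⟨b', hb', c', hc', u', rfl⟩
    exact ⟨_, add_mem (mul_mem hb hc') (mul_mem hc hb'), _, mul_mem hc hc', u.mul u',
      div_add_div _ _ u.1 u'.1⟩
  algebraMap_mem' c := ⟨_, A.algebraMap_mem c, 1, one_mem _, unAt_one, (div_one _).symm⟩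

theorem lz_div {A : Subalgebra ℂ X.K} (ha : a ∈ lz A x) (hb : b ∈ lz A x) (u : UnAt b x) :
    a / b ∈ lz A x := by
  obtain ⟨p, hp, q, hq, v, rfl⟩ := hb
  have w : UnAt p x := by
    have := u.mul v
    rwa [div_mul_cancel₀ _ v.1] at this
  rw [div_eq_mul_inv, inv_div]
  exact mul_mem ha ⟨q, hq, p, hp, w, rfl⟩

theorem Emb.mul [DecidableEq X.K] (h : Emb s W) (hs : Bpf s W) (ht : Bpf t W) : Emb (s * t) W := by
  intro x hx g hg a ha
  obtain ⟨p, hp⟩ := hs x hx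
  obtain ⟨q, hq⟩ := ht x hx
  obtain ⟨b, hb, c, hc, u, rfl⟩ := h x hx p hp a ha
  have k : Algebra.adjoin ℂ ((· / p) '' (s : Set X.K)) ≤
      lz (Algebra.adjoin ℂ ((· / g) '' ((s * t : Finset X.K) : Set X.K))) x := by
    refine Algebra.adjoin_le ?_
    rintro _ ⟨e, he, rfl⟩
    refine ⟨e * q / g, Algebra.subset_adjoin ⟨_, Finset.mul_mem_mul he hq.1, rfl⟩, p * q / g,
      Algebra.subset_adjoin ⟨_, Finset.mul_mem_mul hp.1 hq.1, rfl⟩, hg.un (hp.mul hq), ?_⟩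
    have := hp.2.1
    have := hq.2.1
    have := hg.2.1
    field_simp
  exact lz_div (k hb) (k hc) u

section rows

variable (har : HAR) (plc : PLC)

include plc in
theorem pl_of (E : X.PrimeDiv) :
    ∃ P : Pl X.K, Is (RingEquiv.refl X.K) E P ∧ ∀ g, ord g E = P.ord g :=
  let ⟨⟨P, h⟩, k⟩ := plc X X (RingEquiv.refl _) (fun _ => rfl) E
  ⟨P, h, k P h⟩

include har plc in
/-- two local equations give the same pull back -/
theorem loc_uniq {D : X.PrimeDiv → ℚ} {m m' : ℕ} (h : LocalEq D m g x) (h' : LocalEq D m' g' x)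
    (hP : Dom P.ring x) : (m' : ℝ) * P.ord g = m * P.ord g' := by
  have a0 := pow_ne_zero m' h.1
  have b0 := pow_ne_zero m h'.1
  have k : ∀ E : X.PrimeDiv, E.1 ⤳ x → ord (g ^ m' / g' ^ m) E = 0 ∧ ord (g ^ m' / g' ^ m)⁻¹ E = 0 := by
    intro E hE
    obtain ⟨Q, -, e⟩ := pl_of plc E
    have a := h.2 E hE
    have b := h'.2 E hE
    rw [e] at a b
    have c : Q.ord (g ^ m' / g' ^ m) = 0 := by
      rw [Pl.ord_div _ a0 b0, Pl.ord_pow, Pl.ord_pow]
      have : ((m' : ℚ) * Q.ord g - m * Q.ord g') = 0 := by rw [a, b]; ring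
      exact_mod_cast this
    rw [e, e, Pl.ord_inv, c]
    exact ⟨rfl, rfl⟩
  have u : UnAt (g ^ m' / g' ^ m) x :=
    ⟨div_ne_zero a0 b0, har X _ x fun E hE => (k E hE).1.ge, har X _ x fun E hE => (k E hE).2.ge⟩
  have := hP.ord u
  rw [Pl.ord_div _ a0 b0, Pl.ord_pow, Pl.ord_pow, sub_eq_zero] at this
  exact_mod_cast this

include har plc in
/-- the difference of the systems is the pull back -/
theorem Dif.pull {D : X.PrimeDiv → ℚ} {m m' : ℕ} (h : Dif D m s t W) (hx : x ∈ W)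
    (hP : Dom P.ring x) (hg : LocalEq D m' g x) :
    (m' : ℝ) * (mx s P - mx t P) = m * P.ord g := by
  obtain ⟨p, hp⟩ := h.b1 x hx
  obtain ⟨q, hq⟩ := h.b2 x hx
  have := loc_uniq har plc (h.eq x hx p q hp hq) hg hP
  rw [Pl.ord_div _ hq.2.1 hp.2.1] at this
  rw [hp.mx hP, hq.mx hP, ← this]
  push_cast
  ring

theorem Dif.ex {D : X.PrimeDiv → ℚ} {m : ℕ} (h : Dif D m s t W) (hx : x ∈ W) :
    ∃ g, LocalEq D m g x :=
  let ⟨p, hp⟩ := h.b1 x hx
  let ⟨q, hq⟩ := h.b2 x hx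
  ⟨_, h.eq x hx p q hp hq⟩

include plc in
theorem localEq_neg {D : X.PrimeDiv → ℚ} {m : ℕ} (h : LocalEq D m g x) : LocalEq (-D) m g⁻¹ x :=
  ⟨inv_ne_zero h.1, fun E hE => by
    obtain ⟨Q, -, e⟩ := pl_of plc E
    have a := h.2 E hE
    rw [e] at a ⊢
    rw [Pl.ord_inv, Int.cast_neg, a, Pi.neg_apply, mul_neg]⟩

theorem Dif.fin (fin : FIN) {D : X.PrimeDiv → ℚ} {m : ℕ} (h : Dif D m s t W) :
    {E : X.PrimeDiv | E.1 ∈ W ∧ D E ≠ 0}.Finite := by
  classical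
  refine (((s ×ˢ t).finite_toSet).biUnion fun q _ => fin X (q.2 / q.1)).subset fun E hE => ?_
  obtain ⟨p, hp⟩ := h.b1 _ hE.1
  obtain ⟨q, hq⟩ := h.b2 _ hE.1
  refine mem_biUnion (x := (p, q)) (Finset.mem_product.2 ⟨hp.1, hq.1⟩) fun k => hE.2 ?_
  have a := (h.eq _ hE.1 p q hp hq).2 E specializes_rfl
  rw [k, Int.cast_zero] at a
  exact (mul_eq_zero.1 a.symm).resolve_left (Nat.cast_ne_zero.2 h.pos.ne')

end rows

end Vale.Agent.P283M.Br
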