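import Vale.Agent.P283M.Br
import Vale.Agent.P283M.Am.Var
import Vale.Agent.P283M.Md.Sm

/-!
# P283M, row MOD
-/

open CategoryTheory AlgebraicGeometry IsLocalRing Order

noncomputable section

namespace Vale.Agent.P283M.Md

open Vale.Agent.P287D Vale.Agent.P287D.Cb Vale.Agent.P283M.Stm Vale.Agent.P283M.Stm.Var
open Vale.Agent.P289 Vale.Agent.P289.H219 Vale.Agent.P270L.S Vale.Agent.P299.G
open Vale.Agent.P289W (tk gp tk_gp stalk_ext)

attribute [local instance] MvPolynomial.gradedAlgebra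

/-- an affine variety is quasi-projective -/
theorem exists_imm (B : Type) [CommRing B] [Algebra ℂ B] [Algebra.FiniteType ℂ B] :
    ∃ (d : ℕ) (i : Spec (.of B) ⟶ PP ℂ d), IsImmersion i ∧
      i ≫ PP.str ℂ d = Spec.map (CommRingCat.ofHom (algebraMap ℂ B)) := by
  obtain ⟨d, γ, hγ⟩ := Algebra.FiniteType.iff_quotient_mvPolynomial''.1 ‹_›
  have hX : ∀ i, (MvPolynomial.X i : MvPolynomial (Fin (d + 1)) ℂ) ∈ gr ℂ d 1 := fun i =>
    MvPolynomial.isHomogeneous_X ℂ i
  let ψ : MvPolynomial (Fin (d + 1)) ℂ →+* B :=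
    MvPolynomial.eval₂Hom (algebraMap ℂ B) (Fin.cons 1 fun i => γ (MvPolynomial.X i))
  have h1 : ψ (MvPolynomial.X 0) * 1 = 1 := by simp [ψ]
  let φ : HomogeneousLocalization.Away (gr ℂ d) (MvPolynomial.X 0) →+* B :=
    (Localization.awayLift ψ _ (isUnit_iff_exists_inv.mpr ⟨1, h1⟩)).comp (algebraMap _ _)
  have c : ∀ c, φ (algebraMap (gr ℂ d 0) _ (algebraMap ℂ (gr ℂ d 0) c)) = algebraMap ℂ B c :=
    fun c => by
      change Localization.awayLift ψ _ (isUnit_iff_exists_inv.mpr ⟨1, h1⟩)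
        (Localization.mk (MvPolynomial.C c) 1) = _
      rw [Localization.mk_one_eq_algebraMap, IsLocalization.Away.lift_eq]
      simp [ψ]
  have s : Function.Surjective φ := fun b => by
    obtain ⟨p, rfl⟩ := hγ b
    change γ p ∈ φ.range
    induction p using MvPolynomial.induction_on with
    | C a => exact ⟨_, (c a).trans (γ.commutes a).symm⟩
    | add p q hp hq => exact map_add γ p q ▸ add_mem hp hq
    | mul_X p i hp =>
      rw [map_mul]
      refine mul_mem hp ⟨HomogeneousLocalization.Away.mk (gr ℂ d) (hX 0) 1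
        (MvPolynomial.X i.succ) (hX _), ?_⟩
      change Localization.awayLift ψ _ (isUnit_iff_exists_inv.mpr ⟨1, h1⟩)
        (Localization.mk _ _) = _
      rw [Localization.awayLift_mk ψ _ _ 1 h1]
      simp [ψ]
  have : IsClosedImmersion (Spec.map (CommRingCat.ofHom φ)) := .spec_of_surjective _ s
  refine ⟨d, Spec.map (CommRingCat.ofHom φ) ≫ Proj.awayι (gr ℂ d) _ (hX 0) one_pos,
    inferInstanceAs (IsImmersion (Spec.map (CommRingCat.ofHom φ) ≫
      Proj.awayι (gr ℂ d) _ (hX 0) one_pos)), ?_⟩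
  change Spec.map (CommRingCat.ofHom φ) ≫ Proj.awayι (gr ℂ d) _ (hX 0) one_pos ≫
    Proj.toSpecZero (gr ℂ d) ≫ Spec.map (CommRingCat.ofHom (algebraMap ℂ (gr ℂ d 0))) = _
  rw [Proj.awayι_toSpecZero_assoc, ← Spec.map_comp, ← Spec.map_comp]
  congr 1
  ext a
  exact c a

/-- the identification of the function fields -/
theorem exists_pull {X Y : Scheme.{0}} [IsIntegral X] [IsIntegral Y]
    (τ : Spec (.of X.functionField) ⟶ Y) (hn : τ (closedPoint X.functionField) = genericPoint Y)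
    (f : Y ⟶ X) (hτ : τ ≫ f = gp X) : ∃ p : X.functionField ≃+* Y.functionField,
      (∀ y a, p (toK (f y) a) = toK y (f.stalkMap y a)) ∧ ∀ y : Y,
        Spec.map (CommRingCat.ofHom (p.symm.toRingHom.comp (toK y))) ≫ Y.fromSpecStalk y = τ := by
  let θ : Y.presheaf.stalk (genericPoint Y) ⟶ .of X.functionField :=
    Y.presheaf.stalkSpecializes (specializes_of_eq hn) ≫
      Scheme.stalkClosedPointTo (R := .of X.functionField) τ
  have hθ : ∀ y : Y, Spec.map (Y.presheaf.stalkSpecializes (genericPoint_specializes y) ≫ θ) ≫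
      Y.fromSpecStalk y = τ := fun y => by
    simp only [θ, Spec.map_comp, Category.assoc, Scheme.SpecMap_stalkSpecializes_fromSpecStalk]
    exact Scheme.Spec_stalkClosedPointTo_fromSpecStalk _
  let θ' : Y.functionField →+* X.functionField := θ.hom
  have hp : ∀ (y : Y) (a : X.presheaf.stalk (f y)),
      θ' (toK y (f.stalkMap y a)) = toK (f y) a := fun y a => by
    have e : f.stalkMap y ≫ Y.presheaf.stalkSpecializes (genericPoint_specializes y) ≫ θ =
        tk (f y) := by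
      refine stalk_ext ?_
      rw [tk_gp, Spec.map_comp, Category.assoc, Scheme.SpecMap_stalkMap_fromSpecStalk,
        ← Category.assoc, hθ, hτ]
    exact congrArg (fun φ => φ.hom a) e
  have hb : Function.Bijective θ' := ⟨θ'.injective, fun t => by
    obtain ⟨a, b, -, rfl⟩ :=
      IsFractionRing.div_surjective (A := X.presheaf.stalk (f (genericPoint Y))) t
    exact ⟨_ / _, (map_div₀ θ' _ _).trans (congrArg₂ (· / ·) (hp _ a) (hp _ b))⟩⟩
  let e := RingEquiv.ofBijective θ' hb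
  exact ⟨e.symm, fun y a => e.symm_apply_eq.2 (hp y a).symm, hθ⟩

/-- the spectrum of a normal affine domain -/
def spc (B : Type) [CommRing B] [IsDomain B] [Algebra ℂ B] [Algebra.FiniteType ℂ B]
    [IsIntegrallyClosed B] : Stm.Var where
  X := Spec (.of B)
  str := Spec.map (CommRingCat.ofHom (algebraMap ℂ B))
  normal := fun x : PrimeSpectrum B =>
    (isIntegrallyClosed_of_isLocalization (R := B) _ x.asIdeal.primeCompl
      x.asIdeal.primeCompl_le_nonZeroDivisors :
        IsIntegrallyClosed ((Spec.structureSheaf B).presheaf.stalk x))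
  qproj := exists_imm B

theorem exists_ff (X : Stm.Var) : ∃ n, FF X.K n := by
  obtain ⟨_, ⟨U, hU, rfl⟩, hx, -⟩ :=
    X.X.isBasis_affineOpens.exists_subset_of_mem_open (Set.mem_univ (genericPoint X.X)) isOpen_univ
  obtain ⟨A, -, hA⟩ := (Am.str X).fg hU hx
  have : Algebra.IsAlgebraic (Algebra.adjoin ℂ (A : Set X.K)) X.K := ⟨fun f => by
    obtain ⟨b, h1, h2, h3⟩ := Am.frac hU hx (mem_loc_gen f)
    rw [← mul_div_cancel_left₀ f h2.1, div_eq_mul_inv]
    exact (isAlgebraic_algebraMap (⟨_, hA _ h3⟩ : Algebra.adjoin ℂ (A : Set X.K))).mul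
      (isAlgebraic_algebraMap (⟨_, hA _ h1⟩ : Algebra.adjoin ℂ (A : Set X.K))).inv⟩
  obtain ⟨n, hn⟩ := Cardinal.lt_aleph0.1
    ((Algebra.IsAlgebraic.trdeg_le_cardinalMk ℂ (A : Set X.K)).trans_lt A.finite_toSet.lt_aleph0)
  exact ⟨n, (Am.str X).ff hn⟩

end Vale.Agent.P283M.Md

namespace Vale.Agent.P283M.Br

open Vale.Agent.P287D Vale.Agent.P287D.Cb Vale.Agent.P283M.Stm Vale.Agent.P283M.Stm.Var
open Vale.Agent.P289 Vale.Agent.P289.H219 Vale.Agent.P299.G Vale.Agent.P283M.Md
open Vale.Agent.P289W (tk gp tk_gp stalk_ext)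

theorem mod : MOD := fun X P x hx => by
  obtain ⟨n, hK⟩ := exists_ff X
  obtain ⟨_, ⟨U, hU, rfl⟩, hxU, -⟩ :=
    X.X.isBasis_affineOpens.exists_subset_of_mem_open (Set.mem_univ x) isOpen_univ
  have hxU : x ∈ U := hxU
  have hU : IsAffineOpen U := hU
  have : Nonempty U := ⟨⟨x, hxU⟩⟩
  obtain ⟨A, a1, a2⟩ := (Am.str X).fg hU hxU
  obtain ⟨B, sm, ic, hs, hB⟩ := exists_smooth hK P A fun a ha =>
    (hx a (Am.mem_reg.1 (a1 a ha) x hxU)).1
  let O := P.ring
  let ψ : Γ(X.X, U) →+* B := (X.X.germToFunctionField U).hom.codRestrict B fun a =>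
    (Algebra.adjoin_le hs : _ ≤ B) (a2 _ (Am.secK_reg U a))
  let Y := spc B
  let f : Y.X ⟶ X.X := Spec.map (CommRingCat.ofHom ψ) ≫ hU.fromSpec
  let i : CommRingCat.of O ⟶ .of X.K := CommRingCat.ofHom (algebraMap O X.K)
  let β : CommRingCat.of B ⟶ .of O :=
    CommRingCat.ofHom (B.val.toRingHom.codRestrict O fun b => hB.le _ b.2)
  let l : Spec (.of O) ⟶ Y.X := Spec.map β
  let α : X.X.presheaf.stalk x ⟶ .of O :=
    CommRingCat.ofHom ((toK x).codRestrict O fun a => (hx _ ⟨a, rfl⟩).1)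
  have : IsLocalHom α.hom := ⟨fun a ha => by
    obtain ⟨b, hb⟩ := ha.exists_right_inv
    have e : toK x a * b.1 = 1 := congrArg Subtype.val hb
    exact P270L.S.un_toK.1 ⟨left_ne_zero_of_mul_eq_one e, ⟨a, rfl⟩, (hx _ ⟨a, rfl⟩).2
      (left_ne_zero_of_mul_eq_one e) (eq_inv_of_mul_eq_one_right e ▸ b.2)⟩⟩
  have e1 : l ≫ f = Spec.map α ≫ X.X.fromSpecStalk x := by
    rw [← hU.fromSpecStalk_eq_fromSpecStalk hxU, IsAffineOpen.fromSpecStalk,
      ← Spec.map_comp_assoc]
    change Spec.map β ≫ Spec.map (CommRingCat.ofHom ψ) ≫ _ = _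
    rw [← Spec.map_comp_assoc]
    congr 2
    ext a
    exact (H594.toK_germ U x hxU a).symm
  have e2 : (Spec.map i ≫ l) ≫ f = gp X.X := by
    rw [Category.assoc, e1, ← tk_gp x, ← Spec.map_comp_assoc]
    rfl
  have e3 : (Spec.map i ≫ l) (closedPoint X.K) = genericPoint Y.X := by
    refine Eq.trans ?_ (genericPoint_eq_bot_of_affine (.of B)).symm
    refine PrimeSpectrum.ext (eq_bot_iff.2 fun b hb => ?_)
    have : (b : X.K) ∈ maximalIdeal X.K := hb
    rw [maximalIdeal_eq_bot] at this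
    exact Subtype.ext this
  obtain ⟨p, p1, p2⟩ := exists_pull _ e3 f e2
  have ov : f ≫ X.str = Y.str := by
    change (Spec.map (CommRingCat.ofHom ψ) ≫ hU.fromSpec) ≫ X.str =
      Spec.map (CommRingCat.ofHom (algebraMap ℂ B))
    have e : hU.fromSpec ≫ X.str = Spec.map (CommRingCat.ofHom (cst X.str U)) := by
      have := IsAffineOpen.SpecMap_appLE_fromSpec X.str (isAffineOpen_top _) hU (le_pre X.str U)
      rw [← this, IsAffineOpen.fromSpec_top, Scheme.isoSpec_Spec_inv, ← Spec.map_comp]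
      rfl
    rw [Category.assoc, e, ← Spec.map_comp]
    congr 1
    ext c
    exact germ_cst X.str U c
  let M : Model X := ⟨Y, f, ov, (HasRingHomProperty.Spec_iff (P := @Smooth)).2
    (RingHom.smooth_algebraMap.2 sm), p, p1⟩
  let E : Y.X := l (closedPoint O)
  let lam : Y.X.presheaf.stalk E →+* O := (Scheme.stalkClosedPointTo (R := .of O) l).hom
  have : IsLocalHom lam := Scheme.isLocalHom_stalkClosedPointTo' (R := O) l
  have hl : ∀ a, (lam a).1 = p.symm (toK E a) := fun a => by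
    have e : Scheme.stalkClosedPointTo (R := .of O) l ≫ i =
        CommRingCat.ofHom (p.symm.toRingHom.comp (toK _)) := by
      refine stalk_ext ?_
      rw [p2, Spec.map_comp, Category.assoc, Scheme.Spec_stalkClosedPointTo_fromSpecStalk]
    exact congrArg (fun φ => φ.hom a) e
  have hb : ∀ b ∈ B, ∃ a, (lam a).1 = b := fun b hb =>
    ⟨(Spec (.of B)).presheaf.germ ⊤ _ trivial ((Scheme.ΓSpecIso (.of B)).inv ⟨b, hb⟩), by
      have := congrArg (fun φ => φ.hom ((Scheme.ΓSpecIso (.of B)).inv ⟨b, hb⟩))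
        (Scheme.germ_stalkClosedPointTo_Spec β)
      simp only [CommRingCat.hom_comp, RingHom.comp_apply, Iso.inv_hom_id_apply] at this
      exact congrArg Subtype.val this⟩
  have su : Function.Surjective lam := fun z => by
    obtain ⟨a, b1, b2, b3⟩ := hB.lo z z.2
    obtain ⟨a', ha⟩ := hb a b1
    obtain ⟨c', hc⟩ := hb _ b3
    have u : IsUnit a' := (isUnit_map_iff lam _).1 (.of_mul_eq_one ⟨a⁻¹, inv_mem_of b2⟩
      (Subtype.ext (by rw [Subring.coe_mul, ha]; exact mul_inv_cancel₀ (ne_of_nmx b2))))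
    obtain ⟨v, hv⟩ := u.exists_left_inv
    refine ⟨v * c', ?_⟩
    have : lam c' = lam a' * z := Subtype.ext (by rw [hc, ← ha]; rfl)
    rw [map_mul, this, ← mul_assoc, ← map_mul, hv, map_one, one_mul]
  have inj : Function.Injective lam := fun a b h => toK_injective E (p.symm.injective (by
    rw [← hl, ← hl, h]))
  have hc : coheight E = 1 := by
    have := P.dvr
    have h := ringKrullDim_eq_of_ringEquiv (RingEquiv.ofBijective lam ⟨inj, su⟩)
    rw [IsDiscreteValuationRing.ringKrullDim_eq_one O, ringKrullDim_stalk_eq_coheight] at h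
    exact_mod_cast h
  refine ⟨M, ⟨E, hc⟩, ?_, fun g => ⟨fun h => ?_, ?_⟩⟩
  · change (l ≫ f) (closedPoint O) = x
    rw [e1]
    exact (congrArg (X.X.fromSpecStalk x) (Spec_closedPoint (f := α))).trans
      Scheme.fromSpecStalk_closedPoint
  · obtain ⟨a, ha⟩ := su ⟨g, h⟩
    exact ⟨a, p.symm_apply_eq.1 ((hl a).symm.trans (congrArg Subtype.val ha))⟩
  · rintro ⟨a, ha⟩
    have : (lam a).1 = g := (hl a).trans (p.symm_apply_eq.2 ha)
    exact this ▸ (lam a).2

end Vale.Agent.P283M.Br
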