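import Vale.Agent.P283M.Br.Crv
import Vale.Agent.P283M.Br.Mod
import Vale.Agent.P283M.Br.Loc
import Vale.Agent.P287D.Iso.Bas

/-!
# P283M: the rows `HAR FIN FFD PLC AMP1 AMP2 ONC` of the bridge
-/

set_option linter.all false

open CategoryTheory AlgebraicGeometry TopologicalSpace Order Pointwise
open Vale.Agent.P299.G Vale.Agent.P289 Vale.Agent.P289.H219
open Vale.Agent.P287D Vale.Agent.P297Z

noncomputable section

namespace Vale.Agent.P283M.Br

open Vale.Agent.P283M.Stm Vale.Agent.P283M.Stm.Var Vale.Agent.P283M.Am Vale.Agent.P270L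

variable {X : Stm.Var} {W : X.X.Opens} {D : X.X → ℚ} {s : Finset X.K} {g : X.K} {x : X.X}

theorem har : HAR := fun X g x h =>
  loc_of_od (nrm X) fun _ y a b => Int.cast_nonneg_iff.2 (h ⟨y, a⟩ b)

theorem fin : FIN := fun X g => by
  by_cases g0 : g = 0
  · refine Set.finite_empty.subset fun y a => a ?_
    rw [g0, ord, Scheme.ord_zero]; rfl
  exact (finite_ord_ne_zero g g0).preimage (f := fun y : X.PrimeDiv => (y.1 : X.X))
    Subtype.val_injective.injOn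

theorem ffd : FFD := fun _ _ => ff

theorem plc : PLC := fun X Y p hp E => by
  obtain ⟨n, hn⟩ := Md.exists_ff Y
  obtain ⟨Q, hQ⟩ := exists_pl_div (Am.str Y) (nrm Y) hn E.2
  have h : Semi (p : X.K →+* Y.K) := ⟨p.surjective, fun c => ⟨c, (hp c).symm⟩, fun c => ⟨c, hp c⟩⟩
  have k : Is p E (h.pl.symm Q) := fun g => by
    rw [← h.mem_pl, Equiv.apply_symm_apply]
    exact dom_ring (nrm Y) hQ E.2
  refine ⟨⟨_, k⟩, fun P hP g => ?_⟩
  rw [Pl.ext_mem fun f => (hP f).trans (k f).symm, ← h.ord_pl, Equiv.apply_symm_apply]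
  exact (dom_ord (nrm Y) hQ E.2 _).symm

theorem genAt_of (h : Sys W D s) (hx : x ∈ W) (hg : g ∈ s) (e : Gn D g x) : GenAt s g x :=
  ⟨hg, e.1, fun b hb => div_loc (nrm X) e (h.sec b hb x hx)⟩

theorem bpf_of (h : Sys W D s) : Bpf s W := fun x hx =>
  let ⟨g, a, b⟩ := h.gen x hx; ⟨g, genAt_of h hx a b⟩

theorem GenAt.gn (e : GenAt s g x) (h : Sys W D s) (hx : x ∈ W) : Gn D g x :=
  let ⟨_, a, b⟩ := h.gen x hx; b.of_un ((genAt_of h hx a b).un e)

theorem dif_one {A : X.PrimeDiv → ℚ} {m : ℕ} (m0 : 0 < m) (h : Sys W ((m : ℚ) • ex A) s) :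
    Dif A m s {1} W :=
  ⟨m0, bpf_of h, fun _ _ => ⟨1, genAt_one⟩, fun x hx a b c d => by
    rw [Finset.mem_singleton.1 d.1, localEq_iff, inv_div, div_one]
    exact c.gn h hx⟩

theorem emb_of (h : VA W D s) : Emb s W := fun x hx g hg a ha => by
  obtain ⟨f, hf, U, hU, hxU, he, hr⟩ := h.chart x hx
  have e := (genAt_of h.sys hx hf ((he x).1 hxU).2)
  have u := hg.un e
  have m : f / g ∈ Algebra.adjoin ℂ ((· / g) '' (s : Set X.K)) := Algebra.subset_adjoin ⟨f, hf, rfl⟩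
  have k : chr s f ≤ lz (Algebra.adjoin ℂ ((· / g) '' (s : Set X.K))) x :=
    Algebra.adjoin_le (by
      rintro _ ⟨b, hb, rfl⟩
      exact ⟨b / g, Algebra.subset_adjoin ⟨b, hb, rfl⟩, f / g, m, u,
        (div_div_div_cancel_right₀ hg.2.1 _ _).symm⟩)
  obtain ⟨b, b1, b2, b3⟩ := frac hU hxU ha
  have := lz_div (k (hr _ b3)) (k (hr _ b1)) b2
  rwa [mul_div_cancel_left₀ _ b2.1] at this

theorem amp1 : AMP1 := fun X Z f _ A hA V hV =>
  let ⟨m, s, m0, h⟩ := (amp_of hA hV).va (Am.str X) (nrm X)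
  ⟨m, s, dif_one m0 h.sys, emb_of h⟩

theorem sys_pow [DecidableEq X.K] (h : Sys W D s) (c : ℕ) :
    Sys W (((c + 1 : ℕ) : ℚ) • D) (s ^ (c + 1)) := by
  induction c with
  | zero => simpa using h
  | succ c ih => rw [pow_succ, Nat.cast_succ, add_smul, one_smul]; exact ih.mul h

theorem amp2 : AMP2 := fun X Z f _ A hA V hV D hD hc => by
  classical
  obtain ⟨m, s, m0, h⟩ := (amp_of hA hV).va (Am.str X) (nrm X)
  have hE : Fs (cut (f ⁻¹ᵁ V) (ex D)) := (hD.image Subtype.val).subset fun y a => by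
    have hy : y ∈ f ⁻¹ᵁ V := by_contra fun b => a.2 (if_neg b)
    exact ⟨⟨y, a.1⟩, ⟨hy, fun b => a.2 ((if_pos hy).trans ((ex_apply ⟨y, a.1⟩).trans b))⟩, rfl⟩
  obtain ⟨r, r0, hr⟩ := exists_mult (W := f ⁻¹ᵁ V) hE fun x hx =>
    let ⟨m, g, a, b⟩ := hc x hx; ⟨m, _, a, (gn_cut hx _).2 (localEq_iff.1 b)⟩
  obtain ⟨c, s', hs⟩ := h.rep (nrm X) (hE.smul r) hr
  have h1 := hs.mul h.sys
  have h2 := sys_pow h.sys c
  refine ⟨r, (c + 1) * m, _, _, ⟨r0, bpf_of h1, bpf_of h2, fun x hx a b u v => ?_⟩,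
    dif_one (mul_pos c.succ_pos m0) (by rwa [Nat.cast_mul, ← smul_smul])⟩
  have := (u.gn h1 hx).mul (v.gn h2 hx).inv
  rw [localEq_iff, inv_div, div_eq_mul_inv, ← gn_cut hx]
  convert this using 1
  rw [Nat.cast_succ, add_smul, one_smul]
  abel

theorem exists_sys (h : Bpf s W) : ∃ D, Sys W D s := by
  classical
  let D : X.X → ℚ := fun y => if h : ∃ g, GenAt s g y then -od h.choose y else 0
  have k : ∀ g x, GenAt s g x → Gn D g x := fun g x e => ⟨e.2.1, fun y _ b => by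
    have c : GenAt s g y := ⟨e.1, e.2.1, fun a ha => reg_gen b (e.2.2 a ha)⟩
    have d : ∃ g, GenAt s g y := ⟨g, c⟩
    have := od_un (d.choose_spec.un c) specializes_rfl
    rw [od_div c.2.1 d.choose_spec.2.1] at this
    simp only [D, dif_pos d]
    linarith⟩
  refine ⟨D, fun a ha x hx => ?_, fun x hx => let ⟨g, e⟩ := h x hx; ⟨g, e.1, k g x e⟩⟩
  obtain ⟨g, e⟩ := h x hx
  have := (k g x e).sc.loc (e.2.2 a ha)
  rwa [div_mul_cancel₀ _ e.2.1] at this

theorem onc : ONC := fun X n hK s W ⟨x, hx⟩ hb he => by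
  classical
  obtain ⟨D, h⟩ := exists_sys hb
  refine ⟨big_mx fun f => ?_, fun P x hx hP' => ?_⟩
  · have hx' := (genericPoint_specializes (x : X.X)).mem_open W.isOpen hx
    obtain ⟨g, hg⟩ := hb _ hx'
    have k : chr s g ≤ (rts s).toSubalgebra :=
      Algebra.adjoin_le (by rintro _ ⟨b, hb, rfl⟩; exact div_mem_rts hb hg.1)
    obtain ⟨b, b1, c, c1, -, rfl⟩ := he _ hx' g hg f (S.mem_loc_gen f)
    exact isAlgebraic_algebraMap (⟨_, div_mem (k b1) (k c1)⟩ : rts s)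
  have hP := dom_S hP'
  refine ⟨h.coh (Am.str X) (nrm X) hK hx hP, fun hc => ?_⟩
  rw [Ba.Md.on_iff_big hK (nef_mx s), res_mx hK]
  obtain ⟨g, hg⟩ := hb x hx
  have c := hg.gn h hx
  have m : ∀ f ∈ chr s g, f ∈ P.ring := fun f a =>
    hP.mem ((Am.str X).chr_loc (nrm X) (fun b hb => h.sec b hb x hx) c a)
  have k : ∀ f ∈ chr s g, P.rd f ∈ rts (P.rs s) := fun f a => by
    induction a using Algebra.adjoin_induction with
    | mem _ a =>
      obtain ⟨b, hb, rfl⟩ := a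
      have := rd_rs h (nrm X) hx hP c hb
      rw [← mul_div_cancel_right₀ (P.rd (b / g)) this.1, ← this.2]
      exact div_mem_rts (Finset.mem_image_of_mem _ hb) (Finset.mem_image_of_mem _ hg.1)
    | algebraMap r => rw [Bm.rd_const]; exact IntermediateField.algebraMap_mem _ r
    | add a b c d e k => rw [Bm.rd_add P (m a c) (m b d)]; exact add_mem e k
    | mul a b c d e k => rw [Bm.rd_mul P (m a c) (m b d)]; exact mul_mem e k
  refine big_mx fun a => ?_
  obtain ⟨f, hf, rfl⟩ := Bm.rd_surj P a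
  obtain ⟨b, b1, c, c1, c2, e⟩ := he x hx g hg f ((dom_ring (nrm X) hP hc).1 hf)
  have := div_mem (k _ b1) (k _ c1)
  rw [show b = c * f by rw [e, mul_div_cancel₀ _ c2.1], Bm.rd_mul P (m _ c1) hf,
    mul_div_cancel_left₀ _ (hP'.rd c2)] at this
  exact isAlgebraic_algebraMap (⟨_, this⟩ : rts (P.rs s))

end Vale.Agent.P283M.Br
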