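import Vale.Agent.P283M.Br.Crv

/-!
# P283M: the row `BAS` of the bridge
-/

open Set CategoryTheory AlgebraicGeometry
open Vale.Agent.P289 Vale.Agent.P289.H219 Vale.Agent.P270L Vale.Agent.P283M.Am

noncomputable section

namespace Vale.Agent.P283M.Br

theorem dom_B {X : Stm.Var} {O : ValuationSubring X.K} {x : X.X} (h : S.Dom O x) : Dom O x :=
  fun _ hg => ⟨h.mem hg, fun h0 h1 => (h.un hg h0 h1).2.2⟩

theorem res_surj {A : Type} [CommRing A] [Algebra ℂ A] [Algebra.FiniteType ℂ A] (I : Ideal A)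
    (h : I.IsMaximal) : Function.Surjective (algebraMap ℂ (A ⧸ I)) := by
  let _ := Ideal.Quotient.field I
  have := finite_of_finite_type_of_isJacobsonRing ℂ (A ⧸ I)
  exact IsAlgClosed.algebraMap_bijective_of_isIntegral.2

theorem bas : BAS := by
  classical
  intro X Z f hf z hz
  obtain ⟨h1, _, h3, h4⟩ := hf
  obtain ⟨_, ⟨V, hV, rfl⟩, hzV, -⟩ :=
    Z.X.isBasis_affineOpens.exists_subset_of_mem_open (Set.mem_univ z) isOpen_univ
  have hV : IsAffineOpen V := hV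
  have hzV : z ∈ V := hzV
  obtain ⟨x₀, rfl⟩ := h3.surj z
  have : Nonempty ↑(f ⁻¹ᵁ V) := ⟨⟨x₀, hzV⟩⟩
  have := h4 V
  let _ : Algebra ℂ Γ(Z.X, V) := (cst Z.str V).toAlgebra
  have : Algebra.FiniteType ℂ Γ(Z.X, V) := cst_finiteType Z.str hV
  let φ : Γ(Z.X, V) →ₐ[ℂ] X.K := { pl f V with
    commutes' := fun c => by
      change X.X.germToFunctionField _ ((f.app V).hom (cst Z.str V c)) = constants X.str c
      rw [app_cst, germ_cst, h1] }
  have hm := hV.primeIdealOf_isMaximal_of_isClosed ⟨_, hzV⟩ hz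
  have hc := fun a : Γ(Z.X, V) => res_surj _ hm (Ideal.Quotient.mk _ a)
  choose c hc using hc
  obtain ⟨T, hT⟩ := Algebra.FiniteType.out (R := ℂ) (A := Γ(Z.X, V))
  let u : Finset X.K := T.image fun a => φ (a - algebraMap ℂ _ (c a))
  have hu : ∀ a : u, ∃ b ∈ (hV.primeIdealOf ⟨_, hzV⟩).asIdeal, φ b = a := fun ⟨a, ha⟩ => by
    obtain ⟨b, -, rfl⟩ := Finset.mem_image.1 ha
    exact ⟨_, Ideal.Quotient.eq.1 (hc b).symm, rfl⟩
  choose b hb eb using hu
  have key : ∀ A : Subalgebra ℂ Γ(Z.X, V), (∀ a, b a ∈ A) → ∀ a, a ∈ A := fun A hA a => by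
    refine (hT.ge.trans (Algebra.adjoin_le fun t ht => ?_) : ⊤ ≤ A) trivial
    have h5 := hA ⟨_, Finset.mem_image_of_mem _ ht⟩
    rw [pl_inj f V (eb ⟨_, Finset.mem_image_of_mem _ ht⟩)] at h5
    simpa using add_mem h5 (A.algebraMap_mem (c t))
  refine ⟨V, u, hV, hzV, fun a ha x hx => ?_, fun O hO hO' => ?_, fun a ha => ?_, fun p hp => ?_,
    fun ξ hξ h x hx => ?_⟩
  · exact (eb ⟨a, ha⟩ ▸ mem_reg.1 (pl_reg f V (b ⟨a, ha⟩)) x hx :)
  · obtain ⟨x, h5, h6⟩ := exists_dom hV O (key (Subalgebra.comap φ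
      { O.toSubring with algebraMap_mem' := hO }) fun a => (eb a ▸ hO' a a.2 : φ (b a) ∈ O))
    exact ⟨x, h5, dom_B h6⟩
  · obtain ⟨t, rfl⟩ := exists_pl f V (mem_reg.2 ha)
    exact key ((Algebra.adjoin ℂ (u : Set X.K)).comap φ)
      (fun a => (eb a ▸ Algebra.subset_adjoin a.2 : φ (b a) ∈ _)) t
  · have e : φ (MvPolynomial.aeval b p) = ev u p := by
      rw [ev, ← AlgHom.comp_apply, MvPolynomial.comp_aeval, funext eb]
    refine ⟨Z.X.basicOpen (MvPolynomial.aeval b p), Z.X.basicOpen_le _, ?_, fun x hx =>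
      (e ▸ (un_pl (Z.X.basicOpen_le _ hx) _).2 hx :)⟩
    rw [Scheme.mem_basicOpen _ _ _ hzV]
    by_contra h5
    have h6 := Ideal.Quotient.eq_zero_iff_mem.2 ((mem_primeIdealOf hV _ hzV _).2 h5)
    rw [← Ideal.Quotient.mkₐ_eq_mk ℂ, ← AlgHom.comp_apply, MvPolynomial.comp_aeval,
      show (fun a => Ideal.Quotient.mkₐ ℂ _ (b a)) = 0 from
        funext fun a => Ideal.Quotient.eq_zero_iff_mem.2 (hb a), MvPolynomial.aeval_zero,
      map_eq_zero] at h6
    exact hp h6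
  · have hξ' : f ξ ∈ V := hξ
    let q := (hV.primeIdealOf ⟨_, hξ'⟩).asIdeal
    have h5 : ∀ a, ∃ e, a - algebraMap ℂ _ e ∈ q := fun a => by
      obtain ⟨e, he⟩ := key ((⊥ : Subalgebra ℂ (Γ(Z.X, V) ⧸ q)).comap (Ideal.Quotient.mkₐ ℂ q))
        (fun a => by
          obtain ⟨e, he⟩ := h a a.2
          refine ⟨e, Ideal.Quotient.eq.2 (q.neg_mem_iff.1 ?_)⟩
          rw [neg_sub]
          refine (mem_primeIdealOf hV _ hξ' _).2 fun k => he ?_
          have h6 := (un_pl hξ' _).2 ((Scheme.mem_basicOpen _ _ _ hξ').2 k)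
          change S.Un ξ (φ _) at h6
          rwa [map_sub, eb, φ.commutes] at h6) a
      exact ⟨e, Ideal.Quotient.eq.1 he.symm⟩
    have h6 : IsClosed {f ξ} := by
      have := LocallyOfFiniteType.jacobsonSpace Z.str
      refine isClosed_singleton_of_isLocallyClosed_singleton
        ⟨V, closure {f ξ}, V.isOpen, isClosed_closure, Set.ext fun y => ⟨?_, fun hy => ?_⟩⟩
      · rintro rfl
        exact ⟨hξ', subset_closure rfl⟩
      have h7 : f ξ ⤳ y := specializes_iff_mem_closure.2 hy.2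
      refine ((specializes_of_le hV hξ' hy.1 fun a ha => ?_).antisymm h7).eq
      obtain ⟨e, he⟩ := h5 a
      have h8 := sub_mem ha (le_of_specializes hV hy.1 hξ' h7 he)
      rw [sub_sub_cancel] at h8
      have h9 : e = 0 := by_contra fun e0 => (hV.primeIdealOf ⟨y, hy.1⟩).isPrime.ne_top
        (Ideal.eq_top_of_isUnit_mem _ h8 ((IsUnit.mk0 e e0).map _))
      rwa [h9, map_zero, sub_zero] at he
    exact (hx.map f.continuous).mem_closed h6 rfl

end Vale.Agent.P283M.Br
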