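import Vale.Agent.P283M.Br
import Vale.Agent.P283M.Am.Var
import Vale.Agent.P283M.Am.Cen
import Vale.Agent.P283M.Crv.Deg

/-!
# P283M: the row `CRV` of the bridge
-/

open Set CategoryTheory AlgebraicGeometry
open Vale.Agent.P287D Vale.Agent.P270L

noncomputable section

namespace Vale.Agent.P283M

namespace Crv

variable {K : Type} [Field K] [Algebra ℂ K] {u s s' : Finset K} {c : ℝ}

theorem nefO (hd : Dg u s s') (hc : 0 ≤ c) : ∀ (n : ℕ) (F : Type) [Field F] [Algebra ℂ F]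
    (σ : Sp K F) (v : Finset F) (b : BD F), FF F (n + 1) → (∀ a ∈ u, a ∈ σ.O ∧ σ.r a ∈ v) →
    ∀ g g', Mx σ.O s g → Mx σ.O s' g' →
    b - c • (mx (σ.sy s g) - mx (σ.sy s' g')) ∈ Prn F → NefO n F v b := by
  intro n
  induction n with
  | zero =>
    intro F _ _ σ v b hF h g g' hg hg' k h0
    have h1 := hd F hF σ (fun a ha => ⟨(h a ha).1, fun P =>
      let ⟨e, he⟩ := h0 _ (h a ha).2; he ▸ P.con e⟩) g g' hg hg'
    have h2 := Cv.I1_prn hF k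
    have h3 := sub_mem (mx_mem_Car (σ.sy s g)) (mx_mem_Car (σ.sy s' g'))
    have h4 : b ∈ Car F := by simpa using add_mem (Prn_le_Car k) (Submodule.smul_mem _ c h3)
    rw [Cv.I1_sub hF h4 (Submodule.smul_mem _ _ h3), Cv.I1_smul,
      Cv.I1_sub hF (mx_mem_Car _) (mx_mem_Car _), sub_eq_zero] at h2
    rw [h2]
    exact mul_nonneg hc (sub_nonneg.2 h1)
  | succ n ih =>
    intro F _ _ σ v b hF h g g' hg hg' k P hP
    obtain ⟨a, ha⟩ := exists_mx (σ.comp P).O ⟨g, hg.1, hg.2.1⟩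
    obtain ⟨a', ha'⟩ := exists_mx (σ.comp P).O ⟨g', hg'.1, hg'.2.1⟩
    refine ih P.κ (σ.comp P) _ _ (Api.ffs.rsd _ F hF P) (fun x hx => ⟨⟨(h x hx).1,
      hP _ (h x hx).2⟩, ?_⟩) a a' ha ha' ?_
    · simp only [Finset.mem_image]
      exact ⟨_, (h x hx).2, rfl⟩
    have h1 := res_prn hF P k
    have h2 := sub_mem (mx_mem_Car (σ.sy s g)) (mx_mem_Car (σ.sy s' g'))
    have h4 : b ∈ Car F := by simpa using add_mem (Prn_le_Car k) (Submodule.smul_mem _ c h2)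
    rw [res_sub hF P h4 (Submodule.smul_mem _ _ h2), res'.smul _ F hF P c _ h2,
      res_sub hF P (mx_mem_Car _) (mx_mem_Car _)] at h1
    have h3 := add_mem h1 (Submodule.smul_mem _ c
      (sub_mem (res_sy hF σ P hg ha) (res_sy hF σ P hg' ha')))
    refine (congrArg (· ∈ Prn P.κ) ?_).mp h3
    simp only [smul_sub]
    abel

end Crv

namespace Br

open Crv

theorem dom_S {X : Stm.Var} {O : ValuationSubring X.K} {x : X.X} (h : Dom O x) : S.Dom O x :=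
  dom_of (fun a => (h _ ⟨a, rfl⟩).1) fun a h0 h1 =>
    S.un_toK.1 ⟨h0, ⟨a, rfl⟩, (h _ ⟨a, rfl⟩).2 h0 h1⟩

theorem crv : CRV := by
  intro X Z f _ n hK V z u hB D m t₁ t₂ hD hn β hβ
  obtain ⟨x, hx, -⟩ := hB.ctr ⊤ (fun _ => trivial) fun _ _ => trivial
  have : Nonempty ↑(f ⁻¹ᵁ V) := ⟨⟨x, hx⟩⟩
  have hd : Dg u t₁ t₂ := dg hn hB.aff
    (fun O h k => let ⟨y, a, b⟩ := hB.ctr O h k; ⟨y, a, dom_S b⟩)
    (fun a => ⟨Am.pl f V a, hB.con _ (Am.mem_reg.1 (Am.pl_reg f V a)), fun y hy =>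
      ⟨Am.mem_reg.1 (Am.pl_reg f V a) y hy, Am.un_pl hy a⟩⟩) fun y hy =>
      let ⟨g, hg⟩ := hD.b1 y hy
      let ⟨g', hg'⟩ := hD.b2 y hy
      ⟨g, hg.1, g', hg'.1, hg.2.1, hg.2.2, hg'.2.2, hD.eq y hy g g' hg hg'⟩
  obtain ⟨g, hg⟩ := hD.b1 x hx
  obtain ⟨g', hg'⟩ := hD.b2 x hx
  have m1 : Mx ⊤ t₁ g := ⟨hg.1, hg.2.1, fun _ _ => trivial⟩
  have m2 : Mx ⊤ t₂ g' := ⟨hg'.1, hg'.2.1, fun _ _ => trivial⟩
  have m0 : (m : ℝ) ≠ 0 := Nat.cast_ne_zero.2 hD.pos.ne'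
  refine nefO hd (c := (m : ℝ)⁻¹) (by positivity) n X.K (Sp.id X.K) u β hK
    (fun a ha => ⟨trivial, ha⟩) g g' m1 m2 ?_
  rw [sy_id t₁ m1, sy_id t₂ m2]
  have h3 := Submodule.smul_mem _ (m : ℝ)⁻¹
    (add_mem hβ (sub_mem (dv_mem_Prn g') (dv_mem_Prn g)))
  refine (congrArg (· ∈ Prn X.K) ?_).mp h3
  simp only [smul_sub, smul_add, inv_smul_smul₀ m0]
  abel

end Br

end Vale.Agent.P283M
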