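import Vale.Agent.P283M.Br
import Vale.Agent.P283M.Md.Frm

/-!
# P283M, row FRM
-/

namespace Vale.Agent.P283M.Br

open Vale.Agent.P287D Vale.Agent.P283M.Stm Vale.Agent.P283M.Stm.Var

theorem frm : FRM := fun X d hK ω h0 => by
  obtain ⟨j, j0, hj⟩ := Md.exists_form hK h0
  refine ⟨j, j0, fun Y p E P h1 h2 => Eq.trans ?_ (hj P)⟩
  have h3 : ∀ g, RegAt (p g) E.1 ↔ g ∈ P.ring := fun g => (h1 g).symm
  simp only [formOrd, h2, h3]

end Vale.Agent.P283M.Br
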