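import Vale.Agent.P283M.Kl.Neg

/-!
# P283M: the criterion of Kleiman over the base for contractions of Fano type
-/

open Set

noncomputable section

namespace Vale.Agent.P283M

open Vale.Agent.P287D

variable {n : ℕ} {K : Type} [Field K] [Algebra ℂ K] {u s : Finset K} {Λ Ω D β Γ Γ' : BD K}

namespace Kl

/-- the system `s` descends to the model of a real adjoint class -/
theorem relr (hK : FF K (n + 1)) (bΩ : Big Ω) (d : Dsc Ω D) (ds : Dsc Ω (mx s)) (c : Γ ∈ Car K)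
    (k : Klt (n + 1) Γ) (b : Bdy n Ω Γ) (h1 : Nef (D - (n + 2 : ℝ) • mx s - Γ))
    (h2 : Big (D - (n + 2 : ℝ) • mx s - Γ)) (p : Psef D) : ∃ N, ZD D N ∧ Dsc (D - N) (mx s) := by
  have hΩ := d.smp
  obtain ⟨ε, E, e, E0, cE, kE, nE⟩ := Pr.kod_klt hK c k h1 h2 hΩ.car
  have e2 := half_pos e
  obtain ⟨U, hU, m⟩ := Mm.exists_sp hΩ bΩ (toFinite {D, Ω})
    (forall_mem_insert.2 ⟨d, forall_eq.2 (.refl hΩ)⟩)
  have m1 : (ε / 2) • Ω ∈ U := U.smul_mem _ (m (.inr rfl))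
  obtain ⟨ι, _, _, F, f1, f2⟩ := hU.nb (sub_mem (m (.inl rfl)) m1) m1 (hΩ.ampOn_smul e2)
  obtain ⟨H, N, z1, z2, z3⟩ := Mm.zct Api.ma hK hΩ bΩ ds (F := F) fun i => by
    have x : F i - (n + 2 : ℝ) • mx s - (Γ + E) = (ε / 2) • Ω +
      (D - (n + 2 : ℝ) • mx s - Γ - E - ε • Ω + (F i - (D - (ε / 2) • Ω)) ) := by module
    have y := nE.add (f1 i).2.2.nef
    exact ⟨(f1 i).1, (hU.des (f1 i).2.1).sub (ds.smul _), Γ + E, add_mem c cE, kE, fun P hP => by
      rw [Pr.dsc_add]; exact sub_nonpos.2 ((b P hP).trans (E0 P)),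
      x ▸ (hΩ.smul e2.le).nef.add y, x ▸ (bΩ.smul e2).add_nef y⟩
  obtain ⟨η, η0, q⟩ := f2 0 (zero_mem _)
  obtain ⟨a, a1, a2⟩ := q 0 (by simpa using η0.le)
  rw [sub_add_cancel, zero_smul, add_zero] at a2
  have a3 := z2 a (fun i => (a1 i).le) (a2 ▸ p)
  exact ⟨N a, a2 ▸ z1.zd a a3, a2 ▸ z3 a a3 (Mm.op_ne a1)⟩

/-- the globalisation of a pair which is klt over the base -/
theorem glob (hK : FF K (n + 1)) (c : Γ' ∈ Car K) (k : ∀ P, Ov u P → -1 < dsc (n + 1) Γ' P)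
    {B : Set (BD K)} (hB : B.Finite) (hc : ∀ β ∈ B, β ∈ Car K) :
    ∃ Ω Γ : BD K, Big Ω ∧ Dsc Ω Γ ∧ Dsc Ω Γ' ∧ (∀ β ∈ B, Dsc Ω β) ∧ Klt (n + 1) Γ ∧ Bdy n Ω Γ ∧
      ∀ P, Ov u P → On n Ω P → Γ' P ≤ Γ P ∧ (dsc (n + 1) Γ' P ≤ 0 → Γ P = Γ' P) := by
  classical
  obtain ⟨t, κ, T, h, l, -, sκ, w⟩ := exists_ls hK finite_empty (hB.insert Γ')
    (forall_mem_insert.2 ⟨c, hc⟩)
  have s' := w Γ' (mem_insert _ _)
  let f : Pl K → ℝ := fun P => if Ov u P then max 0 (-dsc (n + 1) Γ' P) else 0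
  obtain ⟨a, b⟩ := l.hull_sum f
  have f0 : ∀ P, 0 ≤ f P := fun P => by
    simp only [f]
    split_ifs
    exacts [le_max_left _ _, le_rfl]
  have f1 : ∀ P, f P < 1 := fun P => by
    simp only [f]
    split_ifs with o
    exacts [max_lt one_pos (by linarith [k P o]), one_pos]
  set Z := ∑ P ∈ T, f P • h P
  have e : ∀ P, On n (mx t) P → dsc (n + 1) (κ + Z) P = -if P ∈ T then f P else 0 := fun P p => by
    rw [Pr.dsc_add, l.d0 p, b P p, zero_sub]
  refine ⟨mx t, κ + Z, l.big, sκ.1.add a, s'.1, fun β hβ => (w β (mem_insert_of_mem _ hβ)).1,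
    fun Q => ?_, fun P p => ?_, fun P o p => ?_⟩
  · have := l.gt (Γ := κ + Z) (Q := Q) (a := 0) (by
      rw [sub_add_cancel_left]
      exact ⟨a.neg, fun P p q => by rw [Pi.neg_apply, b P p, if_neg q, neg_zero]⟩) le_rfl one_pos
      fun P p _ => by
        rw [e P (l.on P p), if_pos p]
        linarith [f1 P]
    linarith
  · rw [e P p, neg_nonpos]
    split_ifs
    exacts [f0 P, le_rfl]
  · have x := l.term.hull.2 P p
    rw [Pi.add_apply, b P p]
    split_ifs with q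
    · have y : Γ' P = κ P - dsc (n + 1) Γ' P := by rw [x, dsc, Pi.sub_apply]; ring
      simp only [f, if_pos o]
      exact ⟨by linarith [le_max_right 0 (-dsc (n + 1) Γ' P)], fun z => by
        rw [max_eq_right (neg_nonneg.2 z)]; linarith⟩
    · rw [sκ.2 P p q, s'.2 P p q, add_zero]
      exact ⟨le_rfl, fun _ => rfl⟩

end Kl

namespace Br

open Kl

/-- **the criterion of Kleiman over the base**, for contractions of Fano type -/
theorem klr (a : Dat n u Λ Γ Γ') (d : Dsc Λ β) (h : NefO n K u β) {δ : ℝ} (hδ : 0 < δ) :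
    SmpO u (β - δ • Γ') := by
  have hK := a.ff
  have sΘ := inf_smp u
  obtain ⟨ε, e, γ, sγ, eγ⟩ := a.amp
  obtain ⟨η, η0, sβ, -⟩ := d.smul_left e
  have sA := sγ.add (a.smp.smul e.le)
  have bA : Big (γ + ε • Λ) := add_comm (ε • Λ) γ ▸ (a.big.smul e).add_smp sγ
  set A := γ + ε • Λ with hA
  have eA : ∀ P, Ov u P → A P = -Γ' P := fun P o => by
    have := eγ P o
    simp only [hA, Pi.add_apply, Pi.sub_apply, Pi.neg_apply] at this ⊢
    linarith
  have ρ0 := mul_pos η0 hδ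
  have cβ := (Car K).smul_mem η d.car
  have nβ := nefO_smul η0.le n K u β hK d.car h
  obtain ⟨Ω, Γ₁, bΩ, d1, d2, w, k1, b1, e1⟩ := glob hK a.car'.car a.klt (toFinite {Λ, γ})
    (forall_mem_insert.2 ⟨a.smp.car, forall_eq.2 sγ.car⟩)
  have dΛ := w Λ (.inl rfl)
  have dA : Dsc Ω A := (w γ (.inr rfl)).add (dΛ.smul ε)
  have dΘ := dΛ.trans a.base
  obtain ⟨c₀, c0, k0⟩ := harto hK bΩ (d1.add dA) dΘ fun P o p => by
    rw [Pi.add_apply, eA P o]
    exact sub_nonneg.2 (e1 P o p).1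
  obtain ⟨c₁, k2⟩ := bigO hK cβ nβ (bA.smul ρ0) ((Car K).smul_mem _ sA.car)
  set C := η • β + (η * δ) • A with hC
  have nC : NefO n K u C := nefO_add n K u _ _ hK cβ ((Car K).smul_mem _ sA.car) nβ
    (nefO_nef n K u _ hK (sA.smul ρ0.le).nef)
  have dC : Dsc Ω C := ((dΛ.trans d).smul η).add (dA.smul _)
  have n0 : (0 : ℝ) ≤ n + 2 := by positivity
  set E := Γ₁ + A + (c₀ + (|c₁| + (n + 2))) • inf u with hE
  have E0 : 0 ≤ E := k0 _ (by linarith [abs_nonneg c₁])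
  have dD : Dsc Ω (C + E) := dC.add ((d1.add dA).add (dΘ.smul (c₀ + (|c₁| + (n + 2)))))
  have bD : Big (C + E) := ((k2 _ (le_abs_self c₁)).add_eff
    (.of_nonneg (k0 (c₀ + (n + 2)) (by linarith)))).mono (le_of_eq (by rw [hE]; module))
  have x : C + E - (n + 2 : ℝ) • inf u - Γ₁ =
      (η * δ) • A + (γ + (ε • Λ + η • β) + (c₀ + |c₁|) • inf u) := by
    rw [hC, hE, hA]; module
  have y := (sγ.add sβ).add (sΘ.smul (add_nonneg c0 (abs_nonneg c₁)))
  obtain ⟨N, z, dM⟩ := relr hK bΩ dD dΘ d1.car k1 b1 (x ▸ ((sA.smul ρ0.le).add y).nef)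
    (x ▸ (bA.smul ρ0).add_smp y) bD.psef
  have bM := Gs.zd_big Api.neg hK z bD
  set M := C + E - N with hM
  have dX := (d.smul η).sub (a.dn'.smul (η * δ))
  obtain ⟨c, -, sX⟩ := dX.neg.exists_add
  have eC : ∀ P, Ov u P → C P = (η • β - (η * δ) • Γ') P := fun P o => by
    simp only [hC, Pi.add_apply, Pi.sub_apply, Pi.smul_apply, smul_eq_mul, eA P o]
    ring
  refine ⟨η⁻¹ • M, z.smp.smul (inv_pos.2 η0).le, fun P o => ?_⟩
  have l1 := nego hK bM dM (sub_mem dC.car z.smp.car) (a := 1)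
    (by rw [one_smul, sub_add_cancel]; exact nC)
    (fun R _ r => by
      have := (Gs.on_zd Api.neg hK Api.mod Api.sep d1.smp bΩ dD z bM r).2
      simpa [hM, this] using E0 R) o
  have l2 := nego hK a.big a.base (sub_mem z.smp.car dX.car) (a := c)
    (nefO_nef n K u _ hK (by
      rw [sub_eq_add_neg, add_assoc]
      exact (z.smp.add (sX c le_rfl)).nef)) (fun R o r => by
      have := (e1 R o (Pr.on_mono res' hK a.smp d1.smp dΛ r)).2 (a.bdy R o r)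
      rw [Pi.sub_apply, ← eC R o]
      simpa [hM, hE, this, eA R o, inf_zero.2 o] using z.nn R) o
  rw [Pi.sub_apply] at l1 l2
  rw [eC P o] at l1
  rw [Pi.smul_apply, show M P = (η • β - (η * δ) • Γ') P by linarith]
  simp only [Pi.sub_apply, Pi.smul_apply, smul_eq_mul]
  field_simp

/-- nef by curves follows from nef as a limit of semiample -/
theorem qv_of' (h : QsAt n) : QvAt n := fun ε e R hR =>
  let ⟨N, N1, k⟩ := h ε e R hR
  ⟨N, N1, fun K _ _ u Λ Γ Γ' a b c => k K u Λ Γ Γ' a b fun _ hδ => klr a a.dn.neg c hδ⟩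

end Br

end Vale.Agent.P283M
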