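import Vale.Agent.P283M.Br
import Vale.Agent.P270L.S3Atl

/-!
# P283M, row MDC
-/

open CategoryTheory AlgebraicGeometry

namespace Vale.Agent.P283M.Br

open Vale.Agent.P287D Vale.Agent.P283M.Stm Vale.Agent.P283M.Stm.Var Vale.Agent.P289
open Vale.Agent.P270L.S Vale.Agent.P299.G

theorem const_germ (X : Var) (x : X.X) (c : ℂ) : algebraMap ℂ X.K c =
    toK x (X.X.presheaf.germ ⊤ x trivial (X.str.appTop ((Scheme.ΓSpecIso (.of ℂ)).inv c))) := by
  have : Nonempty (⊤ : X.X.Opens) := ⟨⟨x, trivial⟩⟩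
  exact (Scheme.algebraMap_germ_eq_germToFunctionField (U := ⊤) _ (x := x) trivial _).symm

theorem mdc : MDC := fun X M => by
  refine ⟨fun c => ?_, fun E P h => ?_⟩
  · let y := genericPoint M.Y.X
    rw [const_germ X (M.π y), const_germ M.Y y, ← M.over]
    refine (M.pull_eq y _).trans (congrArg (toK y) ?_)
    exact Scheme.Hom.germ_stalkMap_apply M.π ⊤ y trivial _
  · rintro _ ⟨a, rfl⟩
    refine ⟨(h _).2 ⟨_, (M.pull_eq E.1 a).symm⟩, fun h0 h1 => ?_⟩
    have h2 := (h _).1 h1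
    rw [map_inv₀, M.pull_eq] at h2
    have h3 : Un E.1 (toK E.1 (M.π.stalkMap E.1 a)) :=
      ⟨fun e => h0 (M.pull.injective (by rw [M.pull_eq, map_zero]; exact e)), toK_mem _ _, h2⟩
    exact (un_toK.2 ((isUnit_map_iff (M.π.stalkMap E.1).hom a).1 (un_toK.1 h3))).2.2

end Vale.Agent.P283M.Br
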